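import Vale.Agent.P015.M.AllC

/-! # P015, effective moat theorem: coverage with a threshold linear in the step size -/

namespace Vale.Agent.N015

open Finset hiding box
open Vale.Agent.P006.CLS Vale.Agent.P015.H222 Vale.Agent.P015.R2.H116 Vale.Agent.P015.M
open scoped Pointwise

/-- regularisation, uniform in `D` -/
def T4bQ : Prop := ∃ A : ℕ, ∀ H : ℕ, 3 ≤ H → ∃ δ c : ℝ, 0 < δ ∧ δ ≤ 1 ∧ 1 ≤ c ∧ ∀ (D : ℕ) (Λ : ℝ),
  c * ((D : ℝ) + 1) ≤ Λ → ∀ N : ℕ, Λ ^ (2 * H) ≤ N → ∀ (r : ℕ → ℤ) (g : ℕ → ℤ × ℤ),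
  (∀ a ≤ N, ∀ b ≤ N, g a = g b → a = b) → (∀ t < N, g (t + 1) - g t ∈ box D) →
  ∀ (z : ℕ → ℕ) (P : ℕ → Finset ℕ) (T : ℕ → ∀ p : ℕ, Finset (ZMod p)),
  (∀ k : ℕ, 1 ≤ k → k < H → Λ ^ k ≤ z k ∧ (z k : ℝ) ≤ Λ ^ (k + 1) ∧
    Bad r g N Λ δ (z k) (P k) (T k)) →
  ∃ (V : Finset (ℤ × ℤ)) (K : ℕ) (v₀ : ℤ × ℤ), Λ ^ (H - 2) ≤ K ∧ Cv V K (Λ ^ A) ∧
    ∀ k : ℕ, 1 ≤ k → k < H → ∑ w ∈ V, GG r (P k) (T k) (w + v₀) ≤ V.card / 4

/-- coverage, uniform in `D` -/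
def CoverQ : Prop := ∃ (H : ℕ) (δ c : ℝ), 2 ≤ H ∧ 0 < δ ∧ δ ≤ 1 ∧ 1 ≤ c ∧ ∀ (D : ℕ) (Λ : ℝ),
  c * ((D : ℝ) + 1) ≤ Λ → ∀ N : ℕ, Λ ^ H ≤ N → ∀ (r : ℕ → ℤ) (g : ℕ → ℤ × ℤ),
  (∀ a ≤ N, ∀ b ≤ N, g a = g b → a = b) → (∀ t < N, g (t + 1) - g t ∈ box D) →
  (∀ k : ℕ, 1 ≤ k → k < H → ∃ (z : ℕ) (P : Finset ℕ) (T : ∀ p : ℕ, Finset (ZMod p)),
    Λ ^ k ≤ z ∧ (z : ℝ) ≤ Λ ^ (k + 1) ∧ Bad r g N Λ δ z P T) → False

/-- **T4b** with the threshold linear in `D` -/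
theorem t4bQ : T4bQ := by
  classical
  have hc := t4c
  have hd := t4d
  have he := t4e
  refine ⟨8, fun H hH => ?_⟩
  have hH' : (3 : ℝ) ≤ H := by exact_mod_cast hH
  have hC0 := one_le_C0
  refine ⟨1 / (32 * H), 10000 * H + C0, by positivity, by
    rw [div_le_one (by positivity)]; linarith, by linarith,
    fun D₀ Λ hΛ' N hN r g hinj hstep₀ z P T hlev => ?_⟩
  obtain ⟨D, hD⟩ : ∃ D : ℕ, D = D₀ + 1 := ⟨_, rfl⟩
  have hD1 : 1 ≤ D := by omega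
  have hD1' : (1 : ℝ) ≤ D := by exact_mod_cast hD1
  have hΛ : 10000 * D * H + C0 ≤ Λ := by
    have h1 : ((D₀ : ℝ) + 1) = D := by rw [hD]; push_cast; ring
    rw [h1] at hΛ'
    nlinarith
  have hDH : (1 : ℝ) ≤ D * H := by nlinarith
  have hΛD : 10000 * ((D : ℝ) * H) ≤ Λ := by nlinarith
  have hΛC : C0 ≤ Λ := by nlinarith
  have hΛbig : (10000 : ℝ) ≤ Λ := by nlinarith
  have hΛD' : 10000 * (D : ℝ) ≤ Λ := by nlinarith
  have hΛ1 : (1 : ℝ) ≤ Λ := by linarith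
  have hΛ0 : (0 : ℝ) < Λ := by linarith
  have hstep : ∀ t < N, g (t + 1) - g t ∈ box D := fun t ht => box_mono (by omega) (hstep₀ t ht)
  have hpw : ∀ m n : ℕ, m ≤ n → Λ ^ m ≤ Λ ^ n := fun m n h => pow_le_pow_right₀ hΛ1 h
  -- the scale
  obtain ⟨K, hK⟩ : ∃ K : ℕ, K = ⌈Λ ^ (H - 2)⌉₊ := ⟨_, rfl⟩
  have hK1 : Λ ^ (H - 2) ≤ K := by rw [hK]; exact Nat.le_ceil _
  have hK2 : (K : ℝ) ≤ Λ ^ (H - 2) + 1 := by rw [hK]; exact (Nat.ceil_lt_add_one (by positivity)).le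
  have hK3 : Λ ≤ K := by
    refine le_trans ?_ hK1
    have := hpw 1 (H - 2) (by omega)
    rwa [pow_one] at this
  have hK4 : 4 * (K : ℝ) ≤ Λ ^ (H - 1) := by
    have h1 : Λ ^ (H - 1) = Λ * Λ ^ (H - 2) := by
      rw [← pow_succ']; congr 1; omega
    have h2 : (1 : ℝ) ≤ Λ ^ (H - 2) := one_le_pow₀ hΛ1
    rw [h1]; nlinarith
  have hKH : (K : ℝ) ≤ Λ ^ (H - 1) := by
    have : (0 : ℝ) ≤ K := Nat.cast_nonneg _
    linarith
  have hKD : 8 * D ≤ K := by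
    have : (8 : ℝ) * D ≤ K := by linarith
    exact_mod_cast this
  -- the functions
  set F : ℕ → ℝ := fun t => ∑ k ∈ Ico 1 H, GG r (P k) (T k) (g t) with hF
  have hF0 : ∀ t, 0 ≤ F t := fun t => Finset.sum_nonneg fun k _ => GG_nonneg _ _ _ _
  have hFs : ∑ t ∈ range (N + 1), F t ≤ (1 / 32) * N := by
    rw [hF, Finset.sum_comm]
    calc ∑ k ∈ Ico 1 H, ∑ t ∈ range (N + 1), GG r (P k) (T k) (g t)
        ≤ ∑ k ∈ Ico 1 H, 1 / (32 * (H : ℝ)) * N := Finset.sum_le_sum fun k hk => by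
          rw [Finset.mem_Ico] at hk
          exact sum_GG_le hΛ0 (by positivity) (hlev k hk.1 hk.2).2.2
      _ = ((H - 1 : ℕ) : ℝ) * (1 / (32 * (H : ℝ)) * N) := by
          rw [Finset.sum_const, Nat.card_Ico, nsmul_eq_mul]
      _ ≤ (H : ℝ) * (1 / (32 * (H : ℝ)) * N) := by
          gcongr
          omega
      _ = (1 / 32) * N := by
          have : (H : ℝ) ≠ 0 := by positivity
          field_simp
  have hKN : 2 * (2 * K + 1) ^ 2 ≤ N := by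
    have h1 : (2 * (2 * (K : ℝ) + 1) ^ 2) ≤ N := by
      refine le_trans ?_ hN
      have h2 : Λ ^ (2 * H) = Λ ^ 2 * (Λ ^ (H - 1)) ^ 2 := by
        rw [← pow_mul, ← pow_add]; congr 1; omega
      rw [h2]
      have h3 : (0 : ℝ) ≤ K := Nat.cast_nonneg _
      have h4 : 2 * (K : ℝ) + 1 ≤ Λ ^ (H - 1) := by
        have : (1 : ℝ) ≤ K := by linarith
        linarith
      calc 2 * (2 * (K : ℝ) + 1) ^ 2 ≤ 2 * (Λ ^ (H - 1)) ^ 2 := by gcongr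
        _ ≤ Λ ^ 2 * (Λ ^ (H - 1)) ^ 2 := by
          have : (2 : ℝ) ≤ Λ ^ 2 := by nlinarith
          gcongr
    exact_mod_cast h1
  obtain ⟨s, e, hse, heN, hin, hout, hsum⟩ := hd D K N (1 / 32) (1 / 8) F g hD1 (by omega) hinj
    hstep hF0 hFs (by norm_num) (by norm_num) hKN
  -- the piece
  set v₀ : ℤ × ℤ := g s with hv₀
  set W : Finset (ℤ × ℤ) := (Ico s e).image (fun t => g t - v₀) with hW
  have hinjW : Set.InjOn (fun t => g t - v₀) (Ico s e) := by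
    intro a ha b hb hab
    simp only [Finset.coe_Ico, Set.mem_Ico] at ha hb
    have h3 : g a = g b := by
      have := congrArg (fun x => x + v₀) hab
      simpa using this
    exact hinj a (by omega) b (by omega) h3
  have hWc : W.card = e - s := by
    rw [hW, Finset.card_image_of_injOn hinjW, Nat.card_Ico]
  have hWc' : (W.card : ℝ) = ((e - s : ℕ) : ℝ) := by rw [hWc]
  have hWpos : (0 : ℝ) < W.card := by
    rw [hWc']
    exact_mod_cast (by omega : 0 < e - s)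
  have hsumW : ∀ k, ∑ w ∈ W, GG r (P k) (T k) (w + v₀) = ∑ t ∈ Ico s e, GG r (P k) (T k) (g t) := by
    intro k
    rw [hW, Finset.sum_image (fun a ha b hb h => hinjW ha hb h)]
    refine Finset.sum_congr rfl fun t _ => ?_
    rw [sub_add_cancel]
  have hsumall : ∑ k ∈ Ico 1 H, ∑ w ∈ W, GG r (P k) (T k) (w + v₀) ≤ W.card / 8 := by
    simp only [hsumW]
    rw [Finset.sum_comm, hWc']
    refine hsum.trans (le_of_eq ?_)
    ring
  -- peeling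
  have hstep' : ∀ t, s ≤ t → t < e → g (t + 1) - g t ∈ box D := fun t _ h2 => hstep t (by omega)
  have hlow := low_piece hD1 hstep' (fun a _ ha b _ hb h => hinj a (by omega) b (by omega) h)
    hKD hse hout v₀ hW
  have hKW : (K : ℝ) ≤ 2 * D * W.card := by
    have h1 := long_piece hstep' hse hout
    have h2 : (K : ℝ) ≤ ((e - s : ℕ) : ℝ) * D + D := by exact_mod_cast h1
    rw [← hWc'] at h2
    have h3 : (1 : ℝ) ≤ W.card := by exact_mod_cast (Nat.cast_pos.mp hWpos)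
    nlinarith
  obtain ⟨V, hV1, hV2⟩ := reg_piece hc he hH hD1 hΛD hΛC hΛbig hlev hKH W v₀ (by
    intro w hw
    obtain ⟨t, ht, rfl⟩ := Finset.mem_image.mp hw
    rw [Finset.mem_Ico] at ht
    exact box_mono (Nat.sub_le _ _) (hin t ht.1 ht.2)) hsumall hlow hKW
  exact ⟨V, K, v₀, hK1, hV1, hV2⟩

/-- **T4**: coverage, with the threshold linear in `D` -/
theorem coverQ : CoverQ := by
  classical
  obtain ⟨a, ha⟩ := t4a
  obtain ⟨A, hb⟩ := t4bQ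
  obtain ⟨k0, hk0⟩ : ∃ k0 : ℕ, k0 = A * a + 1 := ⟨_, rfl⟩
  obtain ⟨k1, hk1⟩ : ∃ k1 : ℕ, k1 = 3 * k0 + 3 := ⟨_, rfl⟩
  obtain ⟨H, hH⟩ : ∃ H : ℕ, H = 4 * k1 + 6 := ⟨_, rfl⟩
  obtain ⟨δ, c, hδ0, hδ1, hc1, hb⟩ := hb H (by omega)
  refine ⟨2 * H, δ, c + 10, by omega, hδ0, hδ1, by linarith,
    fun D Λ hΛ N hN r g hinj hstep hlev => ?_⟩
  have hD0 : (0 : ℝ) ≤ D := Nat.cast_nonneg _
  have hΛ1 : c * ((D : ℝ) + 1) ≤ Λ := by nlinarith
  have hΛ10 : (10 : ℝ) ≤ Λ := by nlinarith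
  have hΛone : (1 : ℝ) ≤ Λ := by linarith
  have hΛ0 : (0 : ℝ) < Λ := by linarith
  choose! z P T hz using hlev
  have hk0H : 1 ≤ k0 ∧ k0 < H := by omega
  have hk1H : 1 ≤ k1 ∧ k1 < H := by omega
  obtain ⟨V, K, v₀, hK, hcv, hsum⟩ := hb D Λ hΛ1 N hN r g hinj hstep z P T
    (fun k h1 h2 => hz k h1 (by omega))
  have hA : 1 ≤ A := by
    by_contra h
    have h0 : A = 0 := by omega
    have := hcv.ten
    rw [h0, pow_zero] at this
    norm_num at this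
  have hΛA : Λ ≤ Λ ^ A := le_self_pow₀ hΛone (by omega)
  obtain ⟨hz0l, hz0u, hz0⟩ := hz k0 hk0H.1 (by omega)
  obtain ⟨hz1l, hz1u, hz1⟩ := hz k1 hk1H.1 (by omega)
  have hpw : ∀ m n : ℕ, m ≤ n → Λ ^ m ≤ Λ ^ n := fun m n h => pow_le_pow_right₀ hΛone h
  -- the scales
  have hQ0 : (Λ ^ A) ^ a ≤ (z k0 : ℝ) := by
    rw [← pow_mul]
    exact (hpw _ _ (by omega)).trans hz0l
  have hQ : z k0 ^ 3 ≤ z k1 := by
    have : ((z k0 ^ 3 : ℕ) : ℝ) ≤ (z k1 : ℝ) := by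
      rw [Nat.cast_pow]
      calc (z k0 : ℝ) ^ 3 ≤ (Λ ^ (k0 + 1)) ^ 3 := pow_le_pow_left₀ (Nat.cast_nonneg _) hz0u 3
        _ = Λ ^ k1 := by rw [← pow_mul]; congr 1; omega
        _ ≤ z k1 := hz1l
    exact_mod_cast this
  have hQK : z k1 ^ 4 ≤ K := by
    have : ((z k1 ^ 4 : ℕ) : ℝ) ≤ (K : ℝ) := by
      rw [Nat.cast_pow]
      calc (z k1 : ℝ) ^ 4 ≤ (Λ ^ (k1 + 1)) ^ 4 := pow_le_pow_left₀ (Nat.cast_nonneg _) hz1u 4
        _ = Λ ^ (H - 2) := by rw [← pow_mul]; congr 1; omega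
        _ ≤ K := hK
    exact_mod_cast this
  have hz02 : 2 ≤ z k0 := by
    have h1 : Λ ≤ Λ ^ k0 := le_self_pow₀ hΛone (by omega)
    have h2 : (2 : ℝ) ≤ (z k0 : ℝ) := by linarith
    exact_mod_cast h2
  -- the two levels are disjoint
  have hdisj : ∀ p ∈ P k1, p ∉ P k0 := by
    intro p hp1 hp0
    have h1 := hz1.low p hp1
    have h2 := hz0.up p hp0
    have h3 : z k0 ^ 3 = z k0 * (z k0 * z k0) := by ring
    have h4 : 2 * 2 ≤ z k0 * z k0 := Nat.mul_le_mul hz02 hz02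
    have h5 : z k0 * 4 ≤ z k0 * (z k0 * z k0) := Nat.mul_le_mul_left _ (by omega)
    omega
  obtain ⟨S, hS⟩ : ∃ S : ∀ p : ℕ, Finset (ZMod p),
      S = fun p => if p ∈ P k0 then T k0 p else T k1 p := ⟨_, rfl⟩
  have hS0 : ∀ p ∈ P k0, S p = T k0 p := fun p hp => by rw [hS]; exact if_pos hp
  have hS1 : ∀ p ∈ P k1, S p = T k1 p := fun p hp => by rw [hS]; exact if_neg (hdisj p hp)
  have hmany : ∀ k, (z k : ℝ) ≤ Λ * (P k).card → (z k : ℝ) ≤ Λ ^ A * (P k).card := fun k h =>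
    h.trans (mul_le_mul_of_nonneg_right hΛA (Nat.cast_nonneg _))
  refine ha (Λ ^ A) V K (z k0) (z k1) hcv r (P k0) (P k1) (shiftT r v₀ S) hz0.rts hz1.rts
    (fun p hp => ⟨hz0.low p hp, hz0.up p hp⟩) (fun p hp => ⟨hz1.low p hp, hz1.up p hp⟩)
    (hmany _ hz0.many) (hmany _ hz1.many) ?_ ?_ ?_ ?_ hQ0 hQ hQK
  · intro p hp
    rw [card_shiftT, hS0 p hp]
    exact (hz0.dens p hp).trans (mul_le_mul_of_nonneg_right hΛA (Nat.cast_nonneg _))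
  · intro p hp
    rw [card_shiftT, hS1 p hp]
    exact (hz1.dens p hp).trans (mul_le_mul_of_nonneg_right hΛA (Nat.cast_nonneg _))
  · refine le_trans (le_of_eq ?_) (hsum k0 hk0H.1 hk0H.2)
    exact Finset.sum_congr rfl fun w _ => GG_congr r v₀ hS0 w
  · refine le_trans (le_of_eq ?_) (hsum k1 hk1H.1 hk1H.2)
    exact Finset.sum_congr rfl fun w _ => GG_congr r v₀ hS1 w

/-- **FIN-2**: in every window of levels there is a sub-window all of whose parts are good. -/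
theorem good_subQ : ∃ (H : ℕ) (δ : ℝ), 2 ≤ H ∧ 0 < δ ∧ δ ≤ 1 ∧
    ∀ κ : ℝ, 0 < κ → ∃ c : ℝ, 1 ≤ c ∧ ∀ (D : ℕ) (Λ : ℝ), c * ((D : ℝ) + 1) ≤ Λ →
    ∀ N : ℕ, Λ ^ H ≤ N →
    ∀ (r : ℕ → ℤ) (g : ℕ → ℤ × ℤ), (∀ a ≤ N, ∀ b ≤ N, g a = g b → a = b) →
    (∀ t < N, g (t + 1) - g t ∈ box D) →
    ∀ (B : ℕ) (z : ℕ → ℕ) (P : ℕ → ℕ → Finset ℕ) (J : Set ℕ),
    (∀ j ∈ J, ∀ a < B, Rts r (P j a) ∧ (∀ p ∈ P j a, z j ≤ 2 * p ∧ p ≤ z j) ∧
      κ * z j ≤ (P j a).card * Real.log (z j)) →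
    ∃ k : ℕ, 1 ≤ k ∧ k < H ∧ ∀ j ∈ J, Λ ^ k ≤ z j → (z j : ℝ) ≤ Λ ^ (k + 1) → ∀ a < B,
      GoodPart r g N Λ δ (P j a) := by
  classical
  obtain ⟨H, δ, c, hH, hδ0, hδ1, hc1, hc⟩ := coverQ
  refine ⟨H, δ, hH, hδ0, hδ1, fun κ hκ => ?_⟩
  have hlog : Filter.Tendsto (fun x : ℝ => Real.log x / x) Filter.atTop (nhds 0) := by
    have := Real.tendsto_pow_log_div_mul_add_atTop 1 0 1 one_ne_zero
    simpa using this
  have hev : ∀ᶠ x : ℝ in Filter.atTop, Real.log x / x ≤ κ / (2 * H) :=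
    hlog.eventually (eventually_le_nhds (by positivity))
  obtain ⟨Λ₁, hΛ₁⟩ := Filter.eventually_atTop.1 hev
  have ha1 := le_abs_self Λ₁
  have ha2 := abs_nonneg Λ₁
  refine ⟨c + |Λ₁| + 10, by linarith, fun D Λ hΛ N hN r g hinj hstep B z P J hJ => ?_⟩
  have hD0 : (0 : ℝ) ≤ D := Nat.cast_nonneg _
  have hΛ0' : c * ((D : ℝ) + 1) ≤ Λ := by nlinarith
  have hΛ1' : Λ₁ ≤ Λ := by nlinarith
  have hΛ10 : (10 : ℝ) ≤ Λ := by nlinarith
  have hΛ0 : (0 : ℝ) < Λ := by linarith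
  have hH0 : (0 : ℝ) < H := by exact_mod_cast (by omega : 0 < H)
  have hkey : 2 * (H * Real.log Λ) ≤ κ * Λ := by
    have h1 := hΛ₁ Λ hΛ1'
    rw [div_le_div_iff₀ hΛ0 (by positivity)] at h1
    linarith
  by_contra hcon
  push Not at hcon
  refine hc D Λ hΛ0' N hN r g hinj hstep fun k hk1 hkH => ?_
  obtain ⟨j, hj, hz1, hz2, a, ha, hbad⟩ := hcon k hk1 hkH
  obtain ⟨hr, hz, hcard⟩ := hJ j hj a ha
  have hT : ∀ p : ℕ, ∃ T : Finset (ZMod p), Rare r g N Λ δ p → (p : ℝ) ≤ Λ * T.card ∧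
      (((range (N + 1)).filter (fun t => ((lf (r p) (g t) : ℤ) : ZMod p) ∈ T)).card : ℝ) * p ≤
      δ * T.card * N := by
    intro p
    by_cases h : Rare r g N Λ δ p
    · obtain ⟨T, hT⟩ := h
      exact ⟨T, fun _ => hT⟩
    · exact ⟨∅, fun h' => absurd h' h⟩
  choose T hT using hT
  refine ⟨z j, (P j a).filter (fun p => Rare r g N Λ δ p), T, hz1, hz2, ?_, ?_, ?_, ?_, ?_, ?_⟩
  · intro p hp
    exact hr p (Finset.mem_filter.mp hp).1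
  · intro p hp
    exact (hz p (Finset.mem_filter.mp hp).1).1
  · intro p hp
    exact (hz p (Finset.mem_filter.mp hp).1).2
  · rw [GoodPart, not_le] at hbad
    have h1 := Finset.card_filter_add_card_filter_not (s := P j a) (fun p => Rare r g N Λ δ p)
    have h2 : (P j a).card ≤ 2 * ((P j a).filter (fun p => Rare r g N Λ δ p)).card := by omega
    have h2' : ((P j a).card : ℝ) ≤ 2 * (((P j a).filter (fun p => Rare r g N Λ δ p)).card : ℝ) := by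
      exact_mod_cast h2
    have hΛk : Λ ≤ Λ ^ k := le_self_pow₀ (by linarith) (by omega)
    have hz0 : (10 : ℝ) ≤ z j := hΛ10.trans (hΛk.trans hz1)
    have hlz0 : 0 ≤ Real.log (z j) := Real.log_nonneg (by linarith)
    have hlz : Real.log (z j) ≤ H * Real.log Λ := by
      have h3 := Real.log_le_log (by linarith) hz2
      rw [Real.log_pow] at h3
      refine h3.trans ?_
      have h4 : ((k + 1 : ℕ) : ℝ) ≤ H := by exact_mod_cast hkH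
      exact mul_le_mul_of_nonneg_right h4 (Real.log_nonneg (by linarith))
    have h5 : κ * z j ≤ κ * (Λ * (((P j a).filter (fun p => Rare r g N Λ δ p)).card : ℝ)) := by
      have h6 : (0 : ℝ) ≤ (((P j a).filter (fun p => Rare r g N Λ δ p)).card : ℝ) :=
        Nat.cast_nonneg _
      calc κ * z j ≤ (P j a).card * Real.log (z j) := hcard
        _ ≤ (2 * (((P j a).filter (fun p => Rare r g N Λ δ p)).card : ℝ)) * (H * Real.log Λ) :=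
            mul_le_mul h2' hlz hlz0 (by positivity)
        _ = (((P j a).filter (fun p => Rare r g N Λ δ p)).card : ℝ) * (2 * (H * Real.log Λ)) := by
            ring
        _ ≤ (((P j a).filter (fun p => Rare r g N Λ δ p)).card : ℝ) * (κ * Λ) :=
            mul_le_mul_of_nonneg_left hkey h6
        _ = _ := by ring
    exact le_of_mul_le_mul_left h5 hκ
  · intro p hp
    exact (hT p (Finset.mem_filter.mp hp).2).1
  · intro p hp
    exact (hT p (Finset.mem_filter.mp hp).2).2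

end Vale.Agent.N015
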