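import Vale.Agent.N015.Quant

/-! # P015, effective moat theorem: Gaussian integers and Gaussian primes -/

namespace Vale.Agent.N015

open Finset hiding box
open Vale.Agent.P006.CLS Vale.Agent.P015.H222 Vale.Agent.P015.M Vale.Agent.P015

theorem sub_mem_box {z w : GaussianInt} {D : ℝ}
    (h : dist (GaussianInt.toComplex z) (GaussianInt.toComplex w) ≤ D) :
    ((w.re, w.im) : ℤ × ℤ) - (z.re, z.im) ∈ box ⌈D⌉₊ := by
  have h2 : (D : ℝ) ≤ ⌈D⌉₊ := Nat.le_ceil D
  rw [Complex.dist_eq] at h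
  have h3 := Complex.abs_re_le_norm (GaussianInt.toComplex z - GaussianInt.toComplex w)
  have h4 := Complex.abs_im_le_norm (GaussianInt.toComplex z - GaussianInt.toComplex w)
  simp only [Complex.sub_re, Complex.sub_im, ← GaussianInt.intCast_re,
    ← GaussianInt.intCast_im] at h3 h4
  have h5 : |(z.re : ℝ) - w.re| ≤ (⌈D⌉₊ : ℝ) := h3.trans (h.trans h2)
  have h6 : |(z.im : ℝ) - w.im| ≤ (⌈D⌉₊ : ℝ) := h4.trans (h.trans h2)
  have h7 : |z.re - w.re| ≤ (⌈D⌉₊ : ℤ) := by exact_mod_cast h5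
  have h8 : |z.im - w.im| ≤ (⌈D⌉₊ : ℤ) := by exact_mod_cast h6
  rw [abs_le] at h7 h8
  simp only [box, Finset.mem_product, Finset.mem_Icc, Prod.fst_sub, Prod.snd_sub]
  refine ⟨⟨?_, ?_⟩, ?_, ?_⟩ <;> omega

/-- a long walk of distinct Gaussian integers meets all classes modulo a small Gaussian prime -/
theorem sieve_bound : ∃ C : ℕ, ∀ D : ℝ, 2 ≤ D → ∀ k : ℕ, Real.exp (Real.exp (D ^ C)) ≤ k →
    ∀ f : ℕ → GaussianInt, (∀ i ≤ k, ∀ j ≤ k, f i = f j → i = j) →
    (∀ n < k, dist (GaussianInt.toComplex (f n)) (GaussianInt.toComplex (f (n + 1))) ≤ D) →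
    ∃ π : GaussianInt, Prime π ∧ (π.norm : ℝ) ≤ Real.exp (D ^ C) ∧
      ∀ a, ∃ n ≤ k, π ∣ f n - a := by
  have hroot : ∀ p : ℕ, ∃ s : ℤ, p.Prime → p % 4 = 1 → (p : ℤ) ∣ s ^ 2 + 1 := by
    intro p
    by_cases hp : p.Prime ∧ p % 4 = 1
    · have := Fact.mk hp.1
      obtain ⟨y, hy⟩ := (ZMod.exists_sq_eq_neg_one_iff (p := p)).2 (by omega)
      obtain ⟨s, rfl⟩ := ZMod.intCast_surjective y
      refine ⟨s, fun _ _ => ?_⟩
      rw [← ZMod.intCast_zmod_eq_zero_iff_dvd]
      push_cast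
      linear_combination -hy
    · exact ⟨0, fun h1 h2 => absurd ⟨h1, h2⟩ hp⟩
  choose r hr using hroot
  obtain ⟨C, hC⟩ := goalQ r hr
  refine ⟨C + 1, fun D hD k hk f hinj hstep => ?_⟩
  obtain ⟨N, K, hN, hK, hg⟩ := hC D hD
  have hDC : 0 ≤ D ^ C := by positivity
  have hDC2 : 2 * D ^ C ≤ D ^ (C + 1) := by rw [pow_succ]; nlinarith
  have hKk : K ≤ k := by
    have : (K : ℝ) ≤ k := hK.trans
      ((Real.exp_le_exp.2 (Real.exp_le_exp.2 (by linarith))).trans hk)
    exact_mod_cast this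
  by_contra hcon
  push Not at hcon
  refine hg (fun t => ((f (min t k)).re, (f (min t k)).im)) ?_ ?_ ?_
  · intro t
    by_cases ht : t < k
    · rw [min_eq_left ht.le, min_eq_left (by omega)]
      exact sub_mem_box (hstep t ht)
    · rw [min_eq_right (by omega), min_eq_right (by omega), sub_self]
      exact FIN.zero_mem_box _
  · intro a ha b hb hab
    simp only [Prod.mk.injEq] at hab
    rw [min_eq_left (by omega), min_eq_left (by omega)] at hab
    exact hinj a (by omega) b (by omega) (Zsqrtd.ext hab.1 hab.2)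
  · intro p hp hp4 hpN
    obtain ⟨π, hπ, hdvd⟩ := exists_prime_of_root hp (hr p hp hp4)
    have hπp : π ∣ (p : GaussianInt) := by
      rw [hdvd]
      simp [lf]
    have hnorm : (π.norm : ℝ) ≤ Real.exp (D ^ (C + 1)) := by
      obtain ⟨u, hu⟩ := hπp
      have h1 : π.norm ∣ (p : ℤ) * p := by
        refine ⟨u.norm, ?_⟩
        rw [← Zsqrtd.norm_mul, ← hu, Zsqrtd.norm_natCast]
      have h2 : π.norm ≤ (p : ℤ) * p := Int.le_of_dvd (by have := hp.pos; positivity) h1
      have h3 : (π.norm : ℝ) ≤ (p : ℝ) * p := by exact_mod_cast h2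
      have h4 : (p : ℝ) ≤ Real.exp (D ^ C) := le_trans (by exact_mod_cast hpN) hN
      calc (π.norm : ℝ) ≤ Real.exp (D ^ C) * Real.exp (D ^ C) :=
            h3.trans (mul_le_mul h4 h4 (by positivity) (by positivity))
        _ = Real.exp (2 * D ^ C) := by rw [← Real.exp_add]; ring_nf
        _ ≤ _ := Real.exp_le_exp.2 hDC2
    obtain ⟨a, ha⟩ := hcon π hπ hnorm
    refine ⟨((lf (r p) (a.re, a.im) : ℤ) : ZMod p), fun t ht => ha (min t k) (min_le_right _ _) ?_⟩
    rw [hdvd]
    have h1 : lf (r p) ((f (min t k) - a).re, (f (min t k) - a).im) =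
        lf (r p) ((f (min t k)).re, (f (min t k)).im) - lf (r p) (a.re, a.im) := by
      simp only [lf, Zsqrtd.re_sub, Zsqrtd.im_sub]
      ring
    rw [h1, Int.cast_sub, ht, sub_self]

/-- the Gaussian integers near `z` -/
noncomputable def gbox (z : GaussianInt) (L : ℕ) : Finset GaussianInt := by
  classical
  exact (box L).image (fun x => (⟨z.re + x.1, z.im + x.2⟩ : GaussianInt))

theorem card_gbox (z : GaussianInt) (L : ℕ) : (gbox z L).card ≤ (2 * L + 1) ^ 2 := by
  classical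
  unfold gbox
  exact Finset.card_image_le.trans (FIN.card_box L).le

theorem mem_gbox {z w : GaussianInt} {X : ℝ}
    (h : dist (GaussianInt.toComplex z) (GaussianInt.toComplex w) ≤ X) : w ∈ gbox z ⌈X⌉₊ := by
  classical
  unfold gbox
  refine Finset.mem_image.2 ⟨_, sub_mem_box h, ?_⟩
  ext <;> simp

theorem mem_gbox_of_norm {w : GaussianInt} {X : ℝ} (hX : 1 ≤ X) (h : (w.norm : ℝ) ≤ X) :
    w ∈ gbox 0 ⌈X⌉₊ := by
  refine mem_gbox ?_
  rw [map_zero, dist_zero_left]
  have h1 : ‖GaussianInt.toComplex w‖ ^ 2 = (w.norm : ℝ) := by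
    rw [GaussianInt.intCast_real_norm, Complex.normSq_eq_norm_sq]
  have h2 := norm_nonneg (GaussianInt.toComplex w)
  nlinarith

theorem exp_three : (20 : ℝ) ≤ Real.exp 3 := by
  have h5 := Real.exp_one_gt_d9
  have h6 : Real.exp 3 = Real.exp 1 ^ 3 := by rw [← Real.exp_nat_mul]; norm_num
  rw [h6]
  calc (20 : ℝ) ≤ 2.718 ^ 3 := by norm_num
    _ ≤ _ := pow_le_pow_left₀ (by norm_num) (by linarith) 3

/-- `a exp x ≤ exp (x D ^ 2)`-type absorption -/
theorem absorb {D : ℝ} (hD : 2 ≤ D) (C : ℕ) :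
    20 * Real.exp (D ^ C) ≤ Real.exp (D ^ (C + 2)) := by
  have h1 : (1 : ℝ) ≤ D ^ C := one_le_pow₀ (by linarith)
  have h2 : (4 : ℝ) ≤ D ^ 2 := by nlinarith
  have h3 : 3 + D ^ C ≤ D ^ (C + 2) := by
    rw [pow_add]
    nlinarith
  calc 20 * Real.exp (D ^ C) ≤ Real.exp 3 * Real.exp (D ^ C) :=
        mul_le_mul_of_nonneg_right exp_three (Real.exp_pos _).le
    _ = Real.exp (3 + D ^ C) := (Real.exp_add _ _).symm
    _ ≤ _ := Real.exp_le_exp.2 h3

/-- walks of distinct Gaussian primes are short -/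
theorem walk_bound : ∃ C : ℕ, ∀ D : ℝ, 2 ≤ D → ∀ L : ℕ, Real.exp (Real.exp (D ^ C)) ≤ L →
    ∀ f : ℕ → GaussianInt, (∀ n ≤ L, Prime (f n)) → (∀ i ≤ L, ∀ j ≤ L, f i = f j → i = j) →
    (∀ n < L, dist (GaussianInt.toComplex (f n)) (GaussianInt.toComplex (f (n + 1))) ≤ D) →
    False := by
  classical
  obtain ⟨C, hC⟩ := sieve_bound
  refine ⟨C + 2, fun D hD L hL f hpr hinj hstep => ?_⟩
  obtain ⟨X, hX⟩ : ∃ X : ℝ, X = Real.exp (D ^ C) := ⟨_, rfl⟩
  have hX1 : 1 ≤ X := by rw [hX]; exact Real.one_le_exp (by positivity)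
  obtain ⟨k, hk⟩ : ∃ k : ℕ, k = ⌈Real.exp X⌉₊ := ⟨_, rfl⟩
  obtain ⟨S, hS⟩ : ∃ S : ℕ, S = (2 * ⌈X⌉₊ + 1) ^ 2 := ⟨_, rfl⟩
  have hXe : X + 1 ≤ Real.exp X := Real.add_one_le_exp X
  have hE0 : 0 < Real.exp X := Real.exp_pos X
  have hk1 : (k : ℝ) + 1 ≤ 2 * Real.exp X := by
    have := (Nat.ceil_lt_add_one hE0.le).le
    rw [← hk] at this
    linarith
  have hS1 : (S : ℝ) + 1 ≤ 10 * Real.exp X ^ 2 := by
    have h1 : (⌈X⌉₊ : ℝ) ≤ X + 1 := (Nat.ceil_lt_add_one (by linarith)).le
    have h2 : 2 * (⌈X⌉₊ : ℝ) + 1 ≤ 3 * Real.exp X := by linarith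
    have h3 : (2 * (⌈X⌉₊ : ℝ) + 1) ^ 2 ≤ (3 * Real.exp X) ^ 2 :=
      pow_le_pow_left₀ (by positivity) h2 2
    have h4 : (1 : ℝ) ≤ Real.exp X ^ 2 := one_le_pow₀ (by linarith)
    rw [hS]
    push_cast
    nlinarith
  have hSL : (S + 1) * (k + 1) ≤ L := by
    have h1 : ((S : ℝ) + 1) * ((k : ℝ) + 1) ≤ 10 * Real.exp X ^ 2 * (2 * Real.exp X) :=
      mul_le_mul hS1 hk1 (by positivity) (by positivity)
    have h2 : 10 * Real.exp X ^ 2 * (2 * Real.exp X) = 20 * Real.exp (3 * X) := by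
      have : Real.exp (3 * X) = Real.exp X ^ 3 := by rw [← Real.exp_nat_mul]; norm_num
      rw [this]; ring
    have h3 : 20 * Real.exp (3 * X) ≤ Real.exp (20 * X) := by
      calc 20 * Real.exp (3 * X) ≤ Real.exp 3 * Real.exp (3 * X) :=
            mul_le_mul_of_nonneg_right exp_three (Real.exp_pos _).le
        _ = Real.exp (3 + 3 * X) := (Real.exp_add _ _).symm
        _ ≤ _ := Real.exp_le_exp.2 (by linarith)
    have h4 : Real.exp (20 * X) ≤ L := by
      refine le_trans (Real.exp_le_exp.2 ?_) hL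
      rw [hX]
      exact absorb hD C
    have h5 : (((S + 1) * (k + 1) : ℕ) : ℝ) ≤ L := by
      push_cast
      linarith
    exact_mod_cast h5
  have hblock : ∀ j : ℕ, ∃ n : ℕ, j ≤ S → n ≤ k ∧ f (j * (k + 1) + n) ∈ gbox 0 ⌈X⌉₊ := by
    intro j
    by_cases hj : j ≤ S
    · have hb : ∀ n ≤ k, j * (k + 1) + n < L := by
        intro n hn
        have h1 : (j + 1) * (k + 1) ≤ (S + 1) * (k + 1) := Nat.mul_le_mul_right _ (by omega)
        have h2 : (j + 1) * (k + 1) = j * (k + 1) + (k + 1) := by ring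
        omega
      obtain ⟨π, hπ, hπn, hall⟩ := hC D hD k (by rw [hk, ← hX]; exact Nat.le_ceil _)
        (fun n => f (j * (k + 1) + n))
        (fun a ha b hb' h => by
          have := hinj _ (hb a ha).le _ (hb b hb').le h
          omega)
        (fun n hn => hstep _ (hb n hn.le))
      obtain ⟨n, hn, hd⟩ := hall 0
      rw [sub_zero] at hd
      refine ⟨n, fun _ => ⟨hn, mem_gbox_of_norm hX1 ?_⟩⟩
      have h1 : Associated π (f (j * (k + 1) + n)) :=
        (hπ.irreducible.associated_of_dvd (hpr _ (hb n hn).le).irreducible hd)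
      have h2 : (f (j * (k + 1) + n)).norm = π.norm := by
        obtain ⟨u, hu⟩ := h1
        have h3 : (u : GaussianInt).norm = 1 := by
          have h4 := (Zsqrtd.norm_eq_one_iff' (by norm_num : (-1 : ℤ) ≤ 0) (u : GaussianInt)).2
            u.isUnit
          exact h4
        rw [← hu, Zsqrtd.norm_mul, h3, mul_one]
      rw [h2, hX]
      exact hπn
    · exact ⟨0, fun h => absurd h hj⟩
  choose nn hnn using hblock
  have hcard : (range (S + 1)).card ≤ (gbox 0 ⌈X⌉₊).card := by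
    refine Finset.card_le_card_of_injOn (fun j => f (j * (k + 1) + nn j)) ?_ ?_
    · intro j hj
      rw [Finset.coe_range, Set.mem_Iio] at hj
      exact (hnn j (by omega)).2
    · intro a ha b hb hab
      rw [Finset.coe_range, Set.mem_Iio] at ha hb
      have ha1 := (hnn a (by omega)).1
      have hb1 := (hnn b (by omega)).1
      have hlt : ∀ j, j < S + 1 → ∀ n ≤ k, j * (k + 1) + n ≤ L := by
        intro j hj n hn
        have h1 : (j + 1) * (k + 1) ≤ (S + 1) * (k + 1) := Nat.mul_le_mul_right _ (by omega)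
        have h2 : (j + 1) * (k + 1) = j * (k + 1) + (k + 1) := by ring
        omega
      have h1 := hinj _ (hlt a ha _ ha1) _ (hlt b hb _ hb1) hab
      have h2 : (a * (k + 1) + nn a) / (k + 1) = a := by
        rw [mul_comm, Nat.mul_add_div (by omega), Nat.div_eq_of_lt (by omega), add_zero]
      have h3 : (b * (k + 1) + nn b) / (k + 1) = b := by
        rw [mul_comm, Nat.mul_add_div (by omega), Nat.div_eq_of_lt (by omega), add_zero]
      rw [← h2, h1, h3]
  have h1 := card_gbox 0 ⌈X⌉₊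
  rw [Finset.card_range] at hcard
  omega

/-- the components of `G_D` have bounded diameter and size -/
theorem component_bound : ∃ C : ℕ, ∀ D : ℝ, 2 ≤ D → ∀ K : (moatGraph D).ConnectedComponent,
    K.supp.Finite ∧ (K.supp.ncard : ℝ) ≤ Real.exp (Real.exp (D ^ C)) := by
  classical
  obtain ⟨C, hC⟩ := walk_bound
  refine ⟨C + 3, fun D hD K => ?_⟩
  obtain ⟨z, rfl⟩ := K.exists_rep
  obtain ⟨X, hX⟩ : ∃ X : ℝ, X = Real.exp (D ^ (C + 1)) := ⟨_, rfl⟩
  have hDC : D ^ C ≤ D ^ (C + 1) := pow_le_pow_right₀ (by linarith) (by omega)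
  have hD1 : D ≤ D ^ (C + 1) := le_self_pow₀ (by linarith) (by omega)
  have hDX : D + 1 ≤ X := by
    have := Real.add_one_le_exp (D ^ (C + 1))
    linarith
  have hXe : X + 1 ≤ Real.exp X := Real.add_one_le_exp X
  have hE0 : 0 < Real.exp X := Real.exp_pos X
  obtain ⟨L, hL⟩ : ∃ L : ℕ, L = ⌈Real.exp X⌉₊ := ⟨_, rfl⟩
  have hL1 : Real.exp (Real.exp (D ^ C)) ≤ L := by
    rw [hL, hX]
    exact (Real.exp_le_exp.2 (Real.exp_le_exp.2 hDC)).trans (Nat.le_ceil _)
  have hL2 : (L : ℝ) ≤ 2 * Real.exp X := by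
    have := (Nat.ceil_lt_add_one hE0.le).le
    rw [← hL] at this
    linarith
  have hnear : ∀ w, (moatGraph D).Reachable z w →
      dist (GaussianInt.toComplex z.1) (GaussianInt.toComplex w.1) ≤ L * D := by
    intro w hw
    obtain ⟨p, hp⟩ := hw.exists_isPath
    have hlen : p.length ≤ L := by
      by_contra hcon
      push Not at hcon
      refine hC D hD L hL1 (fun n => (p.getVert n).1) (fun n _ => (p.getVert n).2) ?_ ?_
      · intro i hi j hj h
        exact hp.getVert_injOn (by simp only [Set.mem_ofPred_eq]; omega)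
          (by simp only [Set.mem_ofPred_eq]; omega) (Subtype.ext h)
      · intro n hn
        exact (p.adj_getVert_succ (by omega)).2
    have hd : ∀ n ≤ p.length, dist (GaussianInt.toComplex z.1)
        (GaussianInt.toComplex (p.getVert n).1) ≤ n * D := by
      intro n
      induction n with
      | zero => intro _; simp
      | succ n ih =>
        intro hn
        have h1 := ih (by omega)
        have h2 := (p.adj_getVert_succ (show n < p.length by omega)).2
        have h3 := dist_triangle (GaussianInt.toComplex z.1)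
          (GaussianInt.toComplex (p.getVert n).1) (GaussianInt.toComplex (p.getVert (n + 1)).1)
        push_cast
        linarith
    have h4 := hd p.length le_rfl
    rw [p.getVert_length] at h4
    refine h4.trans (mul_le_mul_of_nonneg_right (by exact_mod_cast hlen) (by linarith))
  have hsub : Subtype.val '' ((moatGraph D).connectedComponentMk z).supp ⊆
      (gbox z.1 ⌈(L : ℝ) * D⌉₊ : Set GaussianInt) := by
    rintro _ ⟨w, hw, rfl⟩
    have h1 : (moatGraph D).Reachable z w := by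
      rw [SimpleGraph.ConnectedComponent.mem_supp_iff, SimpleGraph.ConnectedComponent.eq] at hw
      exact hw.symm
    exact mem_gbox (hnear w h1)
  have hfin : (Subtype.val '' ((moatGraph D).connectedComponentMk z).supp).Finite :=
    (Finset.finite_toSet _).subset hsub
  refine ⟨hfin.of_finite_image Subtype.val_injective.injOn, ?_⟩
  have h1 : ((moatGraph D).connectedComponentMk z).supp.ncard ≤ (2 * ⌈(L : ℝ) * D⌉₊ + 1) ^ 2 := by
    rw [← Set.ncard_image_of_injective _ Subtype.val_injective]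
    refine (Set.ncard_le_ncard hsub (Finset.finite_toSet _)).trans ?_
    rw [Set.ncard_coe_finset]
    exact card_gbox _ _
  have h2 : (⌈(L : ℝ) * D⌉₊ : ℝ) ≤ L * D + 1 := (Nat.ceil_lt_add_one (by positivity)).le
  have h3 : (L : ℝ) * D ≤ 2 * Real.exp X * Real.exp X :=
    mul_le_mul hL2 (by linarith) (by linarith) (by positivity)
  have h4 : (3 : ℝ) ≤ Real.exp X * Real.exp X := by nlinarith
  have h5 : 2 * (⌈(L : ℝ) * D⌉₊ : ℝ) + 1 ≤ Real.exp (4 * X) := by
    have h6 : Real.exp (4 * X) = Real.exp X ^ 4 := by rw [← Real.exp_nat_mul]; norm_num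
    have h7 : (5 : ℝ) ≤ Real.exp X * Real.exp X := by nlinarith
    have h8 : Real.exp X ^ 4 = (Real.exp X * Real.exp X) * (Real.exp X * Real.exp X) := by ring
    rw [h6, h8]
    nlinarith
  have h6 : (((2 * ⌈(L : ℝ) * D⌉₊ + 1) ^ 2 : ℕ) : ℝ) ≤ Real.exp (4 * X) ^ 2 := by
    push_cast
    exact pow_le_pow_left₀ (by positivity) h5 2
  have h7 : Real.exp (4 * X) ^ 2 = Real.exp (8 * X) := by
    rw [← Real.exp_nat_mul]; congr 1; push_cast; ring
  have h8 : 8 * X ≤ Real.exp (D ^ (C + 3)) := by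
    have h9 := absorb hD (C + 1)
    rw [← hX] at h9
    linarith
  calc _ ≤ (((2 * ⌈(L : ℝ) * D⌉₊ + 1) ^ 2 : ℕ) : ℝ) := by exact_mod_cast h1
    _ ≤ Real.exp (8 * X) := h6.trans h7.le
    _ ≤ _ := Real.exp_le_exp.2 h8

/-- no infinite walk with steps growing like a small power of `log log` -/
theorem growing_steps : ∃ c : ℝ, 0 < c ∧ ¬ ∃ γ : ℕ → {z : GaussianInt // Prime z},
    Function.Injective γ ∧ ∀ n,
      dist (GaussianInt.toComplex (γ n)) (GaussianInt.toComplex (γ (n + 1))) ≤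
        Real.log (Real.log (‖GaussianInt.toComplex (γ n)‖ + 16)) ^ c := by
  obtain ⟨C₀, hC⟩ := walk_bound
  obtain ⟨C, hCd⟩ : ∃ C : ℕ, C = C₀ + 1 := ⟨_, rfl⟩
  have hC1 : (1 : ℝ) ≤ C := by exact_mod_cast (by omega : 1 ≤ C)
  refine ⟨1 / (2 * C), by positivity, ?_⟩
  rintro ⟨γ, hinj, hstep⟩
  obtain ⟨y, hy1, hy2, hy3⟩ : ∃ y : ℝ, (2 : ℝ) ^ C ≤ y ∧ ‖GaussianInt.toComplex (γ 0)‖ ≤ y ∧
      2 ≤ y := by
    have h1 : (0 : ℝ) ≤ 2 ^ C := by positivity
    have h2 := norm_nonneg (GaussianInt.toComplex (γ 0))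
    exact ⟨2 ^ C + ‖GaussianInt.toComplex (γ 0)‖ + 2, by linarith, by linarith, by linarith⟩
  obtain ⟨D, hD⟩ : ∃ D : ℝ, D = y ^ ((1 : ℝ) / C) := ⟨_, rfl⟩
  have hDC : D ^ C = y := by
    rw [hD, one_div]
    exact Real.rpow_inv_natCast_pow (by linarith) (by omega)
  have hD0 : 0 ≤ D := by rw [hD]; positivity
  have hD2 : 2 ≤ D := by
    by_contra h
    push Not at h
    have := pow_lt_pow_left₀ h hD0 (by omega : C ≠ 0)
    linarith
  have hDy : D ≤ y := by
    rw [← hDC]
    exact le_self_pow₀ (by linarith) (by omega)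
  obtain ⟨L, hL⟩ : ∃ L : ℕ, L = ⌈Real.exp (Real.exp y)⌉₊ := ⟨_, rfl⟩
  have hE1 : y + 1 ≤ Real.exp y := Real.add_one_le_exp y
  have hE2 : Real.exp y + 1 ≤ Real.exp (Real.exp y) := Real.add_one_le_exp _
  have hL1 : Real.exp (Real.exp (D ^ C₀)) ≤ L := by
    rw [hL]
    refine le_trans (Real.exp_le_exp.2 (Real.exp_le_exp.2 ?_)) (Nat.le_ceil _)
    rw [← hDC]
    exact pow_le_pow_right₀ (by linarith) (by omega)
  have hL2 : (L : ℝ) ≤ Real.exp (Real.exp y) + 1 := by
    rw [hL]; exact (Nat.ceil_lt_add_one (Real.exp_pos _).le).le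
  have hbig : y + L * D + 16 ≤ Real.exp (Real.exp (y ^ 2)) := by
    have h1 : (L : ℝ) * D ≤ (Real.exp (Real.exp y) + 1) * y :=
      mul_le_mul hL2 hDy hD0 (by positivity)
    have h2 : y + L * D + 16 ≤ 20 * (Real.exp (Real.exp y) * Real.exp (Real.exp y)) := by
      nlinarith
    have h3 : 20 * (Real.exp (Real.exp y) * Real.exp (Real.exp y)) ≤
        Real.exp (3 + 2 * Real.exp y) := by
      rw [Real.exp_add, two_mul, Real.exp_add]
      exact mul_le_mul_of_nonneg_right exp_three (by positivity)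
    have h4 : 3 + 2 * Real.exp y ≤ Real.exp (y ^ 2) := by
      have h5 : Real.exp y * Real.exp y ≤ Real.exp (y ^ 2) := by
        rw [← Real.exp_add]
        exact Real.exp_le_exp.2 (by nlinarith)
      nlinarith
    exact h2.trans (h3.trans (Real.exp_le_exp.2 h4))
  have hφ : ∀ R : ℝ, 0 ≤ R → R ≤ y + L * D →
      Real.log (Real.log (R + 16)) ^ (1 / (2 * (C : ℝ))) ≤ D := by
    intro R hR0 hR
    have h1 : Real.log (R + 16) ≤ Real.exp (y ^ 2) := by
      rw [Real.log_le_iff_le_exp (by linarith)]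
      linarith
    have h2 : 1 ≤ Real.log (R + 16) := by
      rw [Real.le_log_iff_exp_le (by linarith)]
      have := Real.exp_one_lt_d9
      linarith
    have h3 : Real.log (Real.log (R + 16)) ≤ y ^ 2 := by
      rw [Real.log_le_iff_le_exp (by linarith)]
      exact h1
    refine (Real.rpow_le_rpow (Real.log_nonneg h2) h3 (by positivity)).trans (le_of_eq ?_)
    rw [hD, ← Real.rpow_natCast, ← Real.rpow_mul (by linarith)]
    congr 1
    push_cast
    field_simp
  have hnorm : ∀ n ≤ L, ‖GaussianInt.toComplex (γ n)‖ ≤ y + n * D := by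
    intro n
    induction n with
    | zero => intro _; simpa using hy2
    | succ n ih =>
      intro hn
      have h1 := ih (by omega)
      have h2 : (n : ℝ) * D ≤ L * D :=
        mul_le_mul_of_nonneg_right (by exact_mod_cast (by omega : n ≤ L)) hD0
      have h3 := (hstep n).trans (hφ _ (norm_nonneg _) (by linarith))
      have h4 := norm_le_norm_add_norm_sub' (GaussianInt.toComplex (γ (n + 1)))
        (GaussianInt.toComplex (γ n))
      rw [dist_comm, dist_eq_norm] at h3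
      push_cast
      linarith
  refine hC D hD2 L hL1 (fun n => (γ n).1) (fun n _ => (γ n).2)
    (fun i _ j _ h => hinj (Subtype.ext h)) (fun n hn => ?_)
  have h1 := hnorm n hn.le
  have h2 : (n : ℝ) * D ≤ L * D :=
    mul_le_mul_of_nonneg_right (by exact_mod_cast hn.le) hD0
  exact (hstep n).trans (hφ _ (norm_nonneg _) (by linarith))

end Vale.Agent.N015
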