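import Vale.Agent.N015.Fin

/-! # P015, effective moat theorem: sizes of the parameters -/

namespace Vale.Agent.N015

open Finset hiding box
open Vale.Agent.P006.CLS Vale.Agent.P015.H222 Vale.Agent.P015.M Vale.Agent.P015.M.FIN

/-- polynomially bounded on `[2, ∞)` -/
def PB (f : ℝ → ℝ) : Prop := ∃ C : ℕ, ∀ D : ℝ, 2 ≤ D → f D ≤ D ^ C

theorem PB.mono {f g : ℝ → ℝ} (hg : PB g) (h : ∀ D : ℝ, 2 ≤ D → f D ≤ g D) : PB f := by
  obtain ⟨C, hC⟩ := hg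
  exact ⟨C, fun D hD => (h D hD).trans (hC D hD)⟩

theorem PB.const (a : ℝ) : PB (fun _ => a) := by
  obtain ⟨n, hn⟩ := pow_unbounded_of_one_lt a (by norm_num : (1 : ℝ) < 2)
  exact ⟨n, fun D hD => hn.le.trans (pow_le_pow_left₀ (by norm_num) hD n)⟩

theorem PB.pow (C : ℕ) : PB (fun D => D ^ C) := ⟨C, fun _ _ => le_rfl⟩

theorem PB.add {f g : ℝ → ℝ} (hf : PB f) (hg : PB g) : PB (fun D => f D + g D) := by
  obtain ⟨a, ha⟩ := hf
  obtain ⟨b, hb⟩ := hg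
  refine ⟨a + b + 1, fun D hD => ?_⟩
  have h1 : D ^ a ≤ D ^ (a + b) := pow_le_pow_right₀ (by linarith) (by omega)
  have h2 : D ^ b ≤ D ^ (a + b) := pow_le_pow_right₀ (by linarith) (by omega)
  have h3 : 0 ≤ D ^ (a + b) := by positivity
  have h4 := ha D hD
  have h5 := hb D hD
  rw [pow_succ]
  nlinarith

theorem PB.mul {f g : ℝ → ℝ} (hf : PB f) (hg : PB g) (hg0 : ∀ D, 2 ≤ D → 0 ≤ g D) :
    PB (fun D => f D * g D) := by
  obtain ⟨a, ha⟩ := hf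
  obtain ⟨b, hb⟩ := hg
  refine ⟨a + b, fun D hD => ?_⟩
  rw [pow_add]
  exact mul_le_mul (ha D hD) (hb D hD) (hg0 D hD) (by positivity)

theorem ceil_le_sq {D : ℝ} (hD : 2 ≤ D) : (⌈D⌉₊ : ℝ) ≤ D ^ 2 := by
  have := (Nat.ceil_lt_add_one (by linarith : (0 : ℝ) ≤ D)).le
  nlinarith

theorem CD_le {D : ℝ} (hD : 2 ≤ D) : CD ⌈D⌉₊ ≤ 19 * Real.log D := by
  have h1 := ceil_le_sq hD
  have h2 : D ≤ (⌈D⌉₊ : ℝ) := Nat.le_ceil D
  have h3 : 3 * (⌈D⌉₊ : ℝ) ≤ D ^ 4 := by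
    have h4 : (3 : ℝ) ≤ D ^ 2 := by nlinarith
    calc 3 * (⌈D⌉₊ : ℝ) ≤ D ^ 2 * D ^ 2 := mul_le_mul h4 h1 (by positivity) (by positivity)
      _ = D ^ 4 := by ring
  have h5 : Real.log (3 * (⌈D⌉₊ : ℝ)) ≤ 4 * Real.log D := by
    have := Real.log_le_log (by linarith) h3
    rwa [Real.log_pow, Nat.cast_ofNat] at this
  have h6 : Real.log (2 * (⌈D⌉₊ : ℝ) + 1) ≤ Real.log (3 * (⌈D⌉₊ : ℝ)) :=
    Real.log_le_log (by linarith) (by linarith)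
  have h7 : Real.log 2 ≤ Real.log D := Real.log_le_log (by norm_num) hD
  have h8 := Real.log_two_gt_d9
  rw [CD]
  linarith

/-- the number of windows -/
noncomputable def WW (c₂ D : ℝ) : ℕ := ⌊c₂ * CD ⌈D⌉₊⌋₊ + 1

theorem PB_HW {H : ℕ} (hH : 2 ≤ H) {c₂ : ℝ} (hc : 0 < c₂) : PB (fun D => (H : ℝ) ^ WW c₂ D) := by
  have hH' : (2 : ℝ) ≤ H := by exact_mod_cast hH
  have hlH : 0 < Real.log H := Real.log_pos (by linarith)
  obtain ⟨a, ha⟩ := exists_nat_ge ((19 * c₂ + 2) * Real.log H)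
  refine ⟨a, fun D hD => ?_⟩
  have h7 : Real.log 2 ≤ Real.log D := Real.log_le_log (by norm_num) hD
  have h8 := Real.log_two_gt_d9
  have hD1 : 1 ≤ ⌈D⌉₊ := Nat.one_le_iff_ne_zero.2 (by
    rw [Ne, Nat.ceil_eq_zero]; linarith)
  have h1 : (WW c₂ D : ℝ) ≤ (19 * c₂ + 2) * Real.log D := by
    rw [WW]
    push_cast
    have h2 : (⌊c₂ * CD ⌈D⌉₊⌋₊ : ℝ) ≤ c₂ * CD ⌈D⌉₊ :=
      Nat.floor_le (mul_nonneg hc.le (CD_pos hD1).le)
    have h3 := mul_le_mul_of_nonneg_left (CD_le hD) hc.le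
    linarith
  have h2 : (H : ℝ) ^ WW c₂ D = Real.exp (WW c₂ D * Real.log H) := by
    rw [Real.exp_nat_mul, Real.exp_log (by linarith)]
  have h3 : D ^ a = Real.exp (a * Real.log D) := by
    rw [Real.exp_nat_mul, Real.exp_log (by linarith)]
  change (H : ℝ) ^ WW c₂ D ≤ D ^ a
  rw [h2, h3]
  refine Real.exp_le_exp.2 ?_
  calc (WW c₂ D : ℝ) * Real.log H ≤ (19 * c₂ + 2) * Real.log D * Real.log H :=
        mul_le_mul_of_nonneg_right h1 hlH.le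
    _ = ((19 * c₂ + 2) * Real.log H) * Real.log D := by ring
    _ ≤ _ := mul_le_mul_of_nonneg_right ha (by linarith)

/-- the effective form of the goal -/
theorem goalQ (r : ℕ → ℤ) (hr : ∀ p : ℕ, p.Prime → p % 4 = 1 → (p : ℤ) ∣ r p ^ 2 + 1) :
    ∃ C : ℕ, ∀ D : ℝ, 2 ≤ D → ∃ N K : ℕ, (N : ℝ) ≤ Real.exp (D ^ C) ∧
      (K : ℝ) ≤ Real.exp (Real.exp (D ^ C)) ∧ ∀ g : ℕ → ℤ × ℤ,
      (∀ t, g (t + 1) - g t ∈ box ⌈D⌉₊) → (∀ a ≤ K, ∀ b ≤ K, g a = g b → a = b) →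
      (∀ p : ℕ, p.Prime → p % 4 = 1 → p ≤ N →
        ∃ c : ZMod p, ∀ t, ((lf (r p) (g t) : ℤ) : ZMod p) ≠ c) → False := by
  obtain ⟨A, H, m₀, c₂, ρ, hA, hH, hc, hρ, hcore⟩ := core r hr
  have hA' : (2 : ℝ) ≤ A := by exact_mod_cast hA
  have hlA : 0 < Real.log A := Real.log_pos (by linarith)
  obtain ⟨X, hX⟩ : ∃ X : ℝ → ℝ, ∀ D,
      X D = ((H : ℝ) ^ WW c₂ D * Real.log A + 1) * ((⌈D⌉₊ : ℝ) + 1) := ⟨_, fun _ => rfl⟩
  obtain ⟨mm, hmm⟩ : ∃ mm : ℝ → ℕ, ∀ D, mm D = m₀ + ⌈X D⌉₊ := ⟨_, fun _ => rfl⟩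
  have hX0 : ∀ D, 0 ≤ X D := fun D => by rw [hX]; positivity
  have pX : PB X := by
    have h1 : PB (fun D => (H : ℝ) ^ WW c₂ D * Real.log A + 1) :=
      ((PB_HW hH hc).mul (PB.const _) (fun _ _ => hlA.le)).add (PB.const 1)
    have h2 : PB (fun D => (⌈D⌉₊ : ℝ) + 1) :=
      ((PB.pow 2).mono (fun D hD => ceil_le_sq hD)).add (PB.const 1)
    exact (h1.mul h2 (fun D _ => by positivity)).mono (fun D _ => (hX D).le)
  have pm : PB (fun D => (mm D : ℝ)) := by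
    refine (((PB.const (m₀ : ℝ)).add pX).add (PB.const 1)).mono (fun D _ => ?_)
    rw [hmm]
    push_cast
    have := (Nat.ceil_lt_add_one (hX0 D)).le
    linarith
  have pN : PB (fun D => (mm D : ℝ) * (H : ℝ) ^ WW c₂ D * Real.log A + Real.log (5 + 2 * ρ)) :=
    ((pm.mul (PB_HW hH hc) (fun _ _ => by positivity)).mul (PB.const _)
      (fun _ _ => hlA.le)).add (PB.const _)
  obtain ⟨C, hC⟩ := pN
  refine ⟨C, fun D hD => ?_⟩
  have hD1 : 1 ≤ ⌈D⌉₊ := Nat.one_le_iff_ne_zero.2 (by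
    rw [Ne, Nat.ceil_eq_zero]; linarith)
  obtain ⟨N, hN⟩ : ∃ N : ℕ, N = A ^ (mm D * H ^ WW c₂ D) := ⟨_, rfl⟩
  have hNr : (N : ℝ) = (A : ℝ) ^ (mm D * H ^ WW c₂ D) := by rw [hN]; push_cast; rfl
  have hN1 : (1 : ℝ) ≤ N := by rw [hNr]; exact one_le_pow₀ (by linarith)
  have hNe : (N : ℝ) = Real.exp ((mm D : ℝ) * (H : ℝ) ^ WW c₂ D * Real.log A) := by
    rw [hNr, ← Nat.cast_pow, ← Nat.cast_pow, ← Nat.cast_mul, Real.exp_nat_mul,
      Real.exp_log (by linarith), Nat.cast_pow]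
  have hN5 : (5 + 2 * ρ) * N ≤ Real.exp (D ^ C) := by
    refine le_trans (le_of_eq ?_) (Real.exp_le_exp.2 (hC D hD))
    rw [Real.exp_add, Real.exp_log (by linarith), ← hNe]
    ring
  obtain ⟨M, hM⟩ : ∃ M : ℕ, M = ⌈(10 * Real.exp (ρ * N)) ^ 2⌉₊ := ⟨_, rfl⟩
  refine ⟨N, M + N, by nlinarith, ?_, fun g hstep hinj hmiss => ?_⟩
  · have h1 : (M : ℝ) ≤ (10 * Real.exp (ρ * N)) ^ 2 + 1 := by
      rw [hM]; exact (Nat.ceil_lt_add_one (by positivity)).le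
    have h2 : (10 * Real.exp (ρ * N)) ^ 2 = 100 * Real.exp (2 * ρ * N) := by
      rw [mul_pow, ← Real.exp_nat_mul]
      norm_num
      ring
    have h3 : 2 * ρ * N + 1 ≤ Real.exp (2 * ρ * N) := Real.add_one_le_exp _
    have h4 : (102 : ℝ) ≤ Real.exp 5 := by
      have h5 := Real.exp_one_gt_d9
      have h6 : Real.exp 5 = Real.exp 1 ^ 5 := by rw [← Real.exp_nat_mul]; norm_num
      rw [h6]
      calc (102 : ℝ) ≤ 2.7 ^ 5 := by norm_num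
        _ ≤ _ := pow_le_pow_left₀ (by norm_num) (by linarith) 5
    have h7 : (N : ℝ) ≤ 2 * ρ * N := by nlinarith
    have h8 : 0 < Real.exp (2 * ρ * N) := Real.exp_pos _
    calc ((M + N : ℕ) : ℝ) = M + N := by push_cast; rfl
      _ ≤ 102 * Real.exp (2 * ρ * N) := by linarith
      _ ≤ Real.exp 5 * Real.exp (2 * ρ * N) := mul_le_mul_of_nonneg_right h4 h8.le
      _ = Real.exp (5 + 2 * ρ * N) := (Real.exp_add _ _).symm
      _ ≤ _ := Real.exp_le_exp.2 (by nlinarith)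
  · refine hcore ⌈D⌉₊ (WW c₂ D) (mm D) M hD1 (by rw [WW]; omega) ?_ (by rw [hmm]; omega) ?_ ?_ g
      hstep (by rw [← hN]; exact hinj) (by rw [← hN]; exact hmiss)
    · rw [WW]
      push_cast
      exact Nat.lt_floor_add_one _
    · rw [← hX, hmm]
      push_cast
      have h1 := Nat.le_ceil (X D)
      have h2 : (0 : ℝ) ≤ m₀ := Nat.cast_nonneg _
      linarith
    · rw [← hNr, hM]
      exact Nat.le_ceil _

end Vale.Agent.N015
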